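import Vale.Agent.P073.Balls.Main

/-!
P073: below the dimension, singularities inside small balls are removable for diffeomorphic
approximation with fixed target.
-/

namespace Vale.Agent.Results.P073.BallRemovable

open MeasureTheory Filter Vale.Agent.P073.Balls
open scoped ENNReal Topology

theorem result {n : ℕ} (hn : 1 ≤ n) {p : ℝ} (hp : 1 ≤ p) (hpn : p < n)
    {Ω Λ : Set (Sp n)} (hΩ : IsOpen Ω) (hΩb : Bornology.IsBounded Ω)
    (hΛb : Bornology.IsBounded Λ) {f : Sp n → Sp n} {G : Sp n → Mat n}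
    (hf : IsSobolevHomeo Ω Λ p f G) (hA : AgreesOffSmallBalls Ω Λ f) :
    DiffeoApproximable p Ω Λ f G := by
  choose g h1 h2 h3 h4 using fun j : ℕ =>
    exists_approx hn hp hpn hΩ hΩb hΛb hf hA (δ := ((j : ℝ≥0∞) + 1)⁻¹)
      (ENNReal.inv_pos.2 (by simp))
  refine ⟨g, fun j => ⟨h1 j, h2 j, h3 j⟩, ?_⟩
  refine tendsto_of_tendsto_of_tendsto_of_le_of_le tendsto_const_nhds
    ENNReal.tendsto_inv_nat_nhds_zero (fun j => zero_le) fun j => ?_
  exact (h4 j).trans (ENNReal.inv_le_inv.2 le_self_add)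

end Vale.Agent.Results.P073.BallRemovable
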